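import Vale.Agent.P359.Stmt

/-!
P359: definitions for the statement about all fluxes `Q` and all particle numbers `N`
(on top of `Vale/Agent/P359/Stmt.lean`).
-/

namespace Vale.Agent.P359.AllFlux

open Vale.Agent.P359

/-- fermionic zero-energy states: antisymmetric tensors `Φ` with `H Φ = 0`, where
`H = ∑_{i<j} P_{ij}` -/
def IsZeroState {N Q : ℕ}
    (P : Matrix (Fin (Q + 1) × Fin (Q + 1)) (Fin (Q + 1) × Fin (Q + 1)) ℂ)
    (Φ : (Fin N → Fin (Q + 1)) → ℂ) : Prop :=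
  IsFermionic Φ ∧ pairSum P Φ = 0

/-- `H_{N,Q} ≥ δ (I - P₀)` on the fermionic space `⋀^N U_Q`, where `P₀` is the orthogonal
projection onto the space of the zero-energy states: every fermionic `Ψ` is a sum `Ψ₀ + Ψ₁` of a
zero-energy state `Ψ₀` and a vector `Ψ₁` orthogonal to all zero-energy states, and
`⟨Ψ, H Ψ⟩ ≥ δ ‖Ψ₁‖²` -/
def GapAboveZero (δ : ℝ) (N Q : ℕ) : Prop :=
  ∀ P, IsPairProj Q P → ∀ Ψ : (Fin N → Fin (Q + 1)) → ℂ, IsFermionic Ψ →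
    ∃ Ψ₀ Ψ₁ : (Fin N → Fin (Q + 1)) → ℂ, Ψ = Ψ₀ + Ψ₁ ∧ IsZeroState P Ψ₀ ∧
      (∀ Φ, IsZeroState P Φ → braket Φ Ψ₁ = 0) ∧
      δ * (braket Ψ₁ Ψ₁).re ≤ (braket Ψ (pairSum P Ψ)).re

/-- the polynomial of the state `Φ` in the stereographic coordinates `z_i = v_i / u_i`:
`∑_x Φ(x) ∏_i sqrt (binom Q (x_i)) z_i^(x_i)` -/
noncomputable def statePoly {N Q : ℕ} (Φ : (Fin N → Fin (Q + 1)) → ℂ) :
    MvPolynomial (Fin N) ℂ :=
  ∑ x : Fin N → Fin (Q + 1),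
    MvPolynomial.monomial (Finsupp.equivFunOnFinite.symm fun i => (x i : ℕ))
      (Φ x * ∏ i, ((Real.sqrt (Nat.choose Q (x i : ℕ)) : ℝ) : ℂ))

/-- `∏_{i<j} (z_i - z_j)^3` -/
noncomputable def laughlinFactor (N : ℕ) : MvPolynomial (Fin N) ℂ :=
  ∏ i : Fin N, ∏ j ∈ Finset.Ioi i, (MvPolynomial.X i - MvPolynomial.X j) ^ 3

end Vale.Agent.P359.AllFlux
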