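import Vale.Agent.P359.Bdl.B2
import Vale.Agent.P359.H329.Defs

/-!
P359: the spectral gap of the `V_1` pseudopotential Hamiltonian above its zero-energy states, for
all particle numbers and all fluxes.
-/

set_option linter.all false

namespace Vale.Agent.P359.AllFlux

open Finset MvPolynomial Vale.Agent.P359

variable {N Q : ℕ}

/-- a polynomial divisible by the cube has vanishing antisymmetrized derivative on the diagonal -/
theorem idn_of_cube_dvd {i j : Fin N} (f : MvPolynomial (Fin N) ℂ)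
    (hd : (X i - X j : MvPolynomial (Fin N) ℂ) ^ 3 ∣ f) :
    idn i j (pderiv i f - pderiv j f) = 0 := by
  obtain ⟨g, hg⟩ := hd
  have h0 : idn i j (X i - X j) = 0 := (X_sub_X_dvd_iff i j _).mp dvd_rfl
  rw [hg, Derivation.leibniz, Derivation.leibniz, Derivation.leibniz_pow, Derivation.leibniz_pow]
  simp only [smul_eq_mul, nsmul_eq_mul, map_sub, map_add, map_mul, map_pow]
  rw [← map_sub, h0]
  simp only [ne_eq, OfNat.ofNat_ne_zero, not_false_eq_true, zero_pow, zero_mul, Nat.cast_ofNat,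
    Nat.add_one_sub_one, mul_zero, add_zero, sub_self]

theorem pairNull_of_idn (hQ : 1 ≤ Q) {Φ : Tensors N Q}
    (h : ∀ i j : Fin N, i < j → idn i j (pderiv i (genPoly Φ) - pderiv j (genPoly Φ)) = 0) :
    PairNull Φ := by
  intro i j hij x s hs
  have h1 := pair_sum_zero hij.ne (h i j hij) x (s + 1)
  have h2 : ∑ p : Fin (Q + 1), ∑ q ∈ univ.filter
      (fun q : Fin (Q + 1) => (p : ℕ) + q = s + 1),
      (((p : ℕ) : ℂ) - ((q : ℕ) : ℂ)) * (rb Q p * rb Q q)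
        * Φ (Function.update (Function.update x i p) j q)
      = -((Real.sqrt ((Q : ℝ) * (Nat.choose (2 * Q - 2) s : ℝ)) : ℝ) : ℂ)
        * ∑ p : Fin (Q + 1), ∑ q ∈ univ.filter
      (fun q : Fin (Q + 1) => (p : ℕ) + q = s + 1),
      (beta Q p q : ℂ) * Φ (Function.update (Function.update x i p) j q) := by
    rw [Finset.mul_sum]
    apply Finset.sum_congr rfl
    intro p _
    rw [Finset.mul_sum]
    apply Finset.sum_congr rfl
    intro q hq
    rw [Finset.mem_filter] at hq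
    rw [beta_eq hs hq.2, mul_assoc]
  rw [h2] at h1
  refine (mul_eq_zero.mp h1).resolve_left ?_
  have hQ' : (0 : ℝ) < (Q : ℝ) := by exact_mod_cast hQ
  have hB : (0 : ℝ) < (Nat.choose (2 * Q - 2) s : ℝ) := by
    have : 0 < Nat.choose (2 * Q - 2) s := Nat.choose_pos (by omega)
    exact_mod_cast this
  rw [neg_eq_zero, Complex.ofReal_eq_zero]
  exact (Real.sqrt_pos.mpr (mul_pos hQ' hB)).ne'

/-- the pair amplitudes of a fermionic state vanish iff its polynomial is divisible by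
`∏_{i<j} (z_i - z_j)^3` -/
theorem pairNull_iff_dvd (hQ : 1 ≤ Q) {Φ : Tensors N Q} (hF : Φ ∈ Fermions N Q) :
    PairNull Φ ↔ vand3 N ∣ genPoly Φ := by
  constructor
  · intro hΦ
    apply vand3_dvd
    intro i j hij
    apply cube_dvd hij.ne
    · rw [rename_genPoly hF, Equiv.Perm.sign_swap hij.ne]
      simp only [Units.val_neg, Units.val_one, Int.reduceNeg, Int.cast_neg, Int.cast_one, C_neg,
        C_1, neg_mul, one_mul]
    · exact idn_pderiv_genPoly hΦ hij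
  · intro hd
    refine pairNull_of_idn hQ fun i j hij => idn_of_cube_dvd _ (dvd_trans ?_ hd)
    rw [vand3_eq]
    exact Finset.dvd_prod_of_mem (fun p : Fin N × Fin N =>
      (X p.1 - X p.2 : MvPolynomial (Fin N) ℂ) ^ 3) (a := (i, j))
      (Finset.mem_filter.mpr ⟨Finset.mem_univ _, hij⟩)

theorem slice_eq_zero_iff (hQ : 1 ≤ Q) {Φ : Tensors N Q} (i j : Fin N)
    (x : Fin N → Fin (Q + 1)) :
    pairProj Q (slice i j Φ x) = 0 ↔ ∀ s < 2 * Q - 1,
    ∑ p : Fin (Q + 1), ∑ q ∈ univ.filter (fun q : Fin (Q + 1) => (p : ℕ) + q = s + 1),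
      (beta Q p q : ℂ) * Φ (Function.update (Function.update x i p) j q) = 0 := by
  rw [pairProj_eq_zero_iff _ hQ]
  refine forall_congr' fun s => forall_congr' fun hs => ?_
  have h2 : inner ℂ (betaVec Q s) (slice i j Φ x) = ((Real.sqrt 2 : ℝ) : ℂ)⁻¹ *
      ∑ p : Fin (Q + 1), ∑ q ∈ univ.filter (fun q : Fin (Q + 1) => (p : ℕ) + q = s + 1),
      (beta Q p q : ℂ) * Φ (Function.update (Function.update x i p) j q) := by
    rw [PiLp.inner_apply]
    simp only [betaVec, slice, RCLike.inner_apply]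
    rw [Fintype.sum_prod_type, Finset.mul_sum]
    apply Finset.sum_congr rfl
    intro p _
    rw [Finset.mul_sum, Finset.sum_filter]
    apply Finset.sum_congr rfl
    intro q _
    split_ifs with hpq
    · rw [Complex.conj_ofReal]
      push_cast
      ring
    · simp
  have h3 : ((Real.sqrt 2 : ℝ) : ℂ)⁻¹ ≠ 0 := by
    apply inv_ne_zero
    rw [Complex.ofReal_ne_zero]
    exact (Real.sqrt_pos.mpr (by norm_num)).ne'
  rw [h2]
  constructor
  · intro h
    exact (mul_eq_zero.mp h).resolve_left h3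
  · intro h
    rw [h, mul_zero]

/-- the zero-energy states are the states with vanishing pair amplitudes -/
theorem hamiltonian_eq_zero_iff (hQ : 1 ≤ Q) (Φ : Tensors N Q) :
    hamiltonian N Q Φ = 0 ↔ PairNull Φ := by
  constructor
  · intro h
    have h1 := re_inner_hamiltonian Φ
    rw [h, inner_zero_right, Complex.zero_re] at h1
    have hnn : ∀ i j : Fin N, 0 ≤
        (∑ x : Fin N → Fin (Q + 1), ‖pairProj Q (slice i j Φ x)‖ ^ 2) / ((Q : ℝ) + 1) ^ 2 := by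
      intro i j
      positivity
    have h2 := (Finset.sum_eq_zero_iff_of_nonneg
      (fun i _ => Finset.sum_nonneg fun j _ => hnn i j)).mp h1.symm
    intro i j hij x
    have h3 := (Finset.sum_eq_zero_iff_of_nonneg (fun j _ => hnn i j)).mp
      (h2 i (Finset.mem_univ i)) j (Finset.mem_Ioi.mpr hij)
    have h4 : ((Q : ℝ) + 1) ^ 2 ≠ 0 := by positivity
    have h5 := (div_eq_zero_iff.mp h3).resolve_right h4
    have h6 := (Finset.sum_eq_zero_iff_of_nonneg (fun x _ => by positivity)).mp h5 x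
      (Finset.mem_univ x)
    have h7 : pairProj Q (slice i j Φ x) = 0 := by
      rw [← norm_eq_zero]
      exact pow_eq_zero_iff (two_ne_zero) |>.mp h6
    exact (slice_eq_zero_iff hQ i j x).mp h7
  · intro h
    rw [hamiltonian]
    apply Finset.sum_eq_zero
    intro i _
    apply Finset.sum_eq_zero
    intro j hj
    ext x
    simp only [pairTerm]
    rw [(slice_eq_zero_iff hQ i j x).mpr (h i j (Finset.mem_Ioi.mp hj) x)]
    rfl

/-- the space of the zero-energy states -/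
noncomputable def zeroSub (N Q : ℕ) : Submodule ℂ (Tensors N Q) where
  carrier := {Φ | Φ ∈ Fermions N Q ∧ PairNull Φ}
  add_mem' := by
    rintro Φ Ψ ⟨h1, h2⟩ ⟨h3, h4⟩
    refine ⟨Submodule.add_mem _ h1 h3, fun i j hij x s hs => ?_⟩
    have h5 := h2 i j hij x s hs
    have h6 := h4 i j hij x s hs
    simp only [PiLp.add_apply, mul_add, Finset.sum_add_distrib, h5, h6, add_zero]
  zero_mem' := ⟨Submodule.zero_mem _, fun i j hij x s hs => by simp⟩
  smul_mem' := by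
    rintro c Φ ⟨h1, h2⟩
    refine ⟨Submodule.smul_mem _ c h1, fun i j hij x s hs => ?_⟩
    have h5 := h2 i j hij x s hs
    have h6 : ∀ p q : Fin (Q + 1), (beta Q p q : ℂ) *
        (c • Φ) (Function.update (Function.update x i p) j q) =
        c * ((beta Q p q : ℂ) * Φ (Function.update (Function.update x i p) j q)) := by
      intro p q
      rw [PiLp.smul_apply, smul_eq_mul]
      ring
    simp only [h6, ← Finset.mul_sum, h5, mul_zero]

theorem mem_zeroSub {Φ : Tensors N Q} : Φ ∈ zeroSub N Q ↔ Φ ∈ Fermions N Q ∧ PairNull Φ :=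
  Iff.rfl

/-- the complexification of a real antisymmetric state with vanishing pair amplitudes -/
theorem real_mem_zeroSub (Φ : (Fin N → Fin (Q + 1)) → ℝ) (hΦ : IsAnti Φ)
    (h0 : ∀ s, s < 2 * Q - 1 → ∀ i j, i < j → ∀ x, contr s Φ i j x = 0) :
    (WithLp.toLp 2 fun x => ((Φ x : ℝ) : ℂ) : Tensors N Q) ∈ zeroSub N Q := by
  refine ⟨?_, ?_⟩
  · intro σ x
    show ((Φ (x ∘ σ) : ℝ) : ℂ) = ((Equiv.Perm.sign σ : ℤ) : ℂ) * ((Φ x : ℝ) : ℂ)
    rw [hΦ σ x]
    push_cast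
    ring
  · intro i j hij x s hs
    have h1 := h0 s hs i j hij x
    have hs2 : Real.sqrt 2 ≠ 0 := (Real.sqrt_pos.mpr (by norm_num)).ne'
    have h2 : (∑ p : Fin (Q + 1),
        ∑ q ∈ univ.filter (fun q : Fin (Q + 1) => (p : ℕ) + q = s + 1),
          beta Q p q * Φ (Function.update (Function.update x i p) j q)) = 0 := by
      have h3 : (∑ p : Fin (Q + 1),
        ∑ q ∈ univ.filter (fun q : Fin (Q + 1) => (p : ℕ) + q = s + 1),
          beta Q p q * Φ (Function.update (Function.update x i p) j q))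
          = Real.sqrt 2 * contr s Φ i j x := by
        unfold contr
        rw [mul_sum]
        refine sum_congr rfl fun p _ => ?_
        rw [mul_sum, sum_filter]
        refine sum_congr rfl fun q _ => ?_
        by_cases hpq : (p : ℕ) + q = s + 1
        · rw [if_pos hpq, if_pos hpq]
          (clear * - hs2; field_simp)
        · rw [if_neg hpq, if_neg hpq, mul_zero]
      rw [h3, h1, mul_zero]
    have h4 := congrArg (fun r : ℝ => (r : ℂ)) h2
    simp only [Complex.ofReal_sum, Complex.ofReal_mul, Complex.ofReal_zero] at h4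
    exact h4

/-- **The gap inequality at one flux, for every particle number**, from a lower bound on the
nonzero eigenvalues of the Fock space Hamiltonian. -/
theorem gap_of_eigen (hQ : 1 ≤ Q) {δ : ℝ} (hδ : 0 < δ)
    (hgap : ∀ μ : ℝ, μ ≠ 0 → Module.End.HasEigenvalue (fockH Q) μ → δ ≤ μ)
    {Ψ : Tensors N Q} (hΨ : Ψ ∈ Fermions N Q) :
    δ * ‖Ψ - (zeroSub N Q).starProjection Ψ‖ ^ 2 ≤ (inner ℂ Ψ (hamiltonian N Q Ψ)).re := by
  have key : ∀ Φ : (Fin N → Fin (Q + 1)) → ℝ, IsAnti Φ → ∃ Φ0 : (Fin N → Fin (Q + 1)) → ℝ,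
      (WithLp.toLp 2 fun x => ((Φ0 x : ℝ) : ℂ) : Tensors N Q) ∈ zeroSub N Q ∧
      δ * ∑ x, (Φ x - Φ0 x) ^ 2 ≤ fockEnergy Q (toFock Φ) := by
    intro Φ hΦ
    obtain ⟨F0, h1, h2, h3⟩ := gap_of_eigenvalues Q hgap N (toFock Φ)
      (fun S hS => toFock_apply_ne Φ S hS)
    have h4 : toFock (fromFock N F0) = F0 := toFock_fromFock F0 h1
    have h5 : IsAnti (fromFock N F0) := fromFock_anti F0
    have h6 := real_mem_zeroSub (fromFock N F0) h5 (fun s hs => by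
      have h6 := h2 s hs
      rw [← h4] at h6
      exact (pairAnn_toFock_eq_zero_iff s h5).mp h6)
    refine ⟨fromFock N F0, h6, ?_⟩
    have h7 : ‖toFock Φ - F0‖ ^ 2 = ∑ x, (Φ x - fromFock N F0 x) ^ 2 := by
      rw [← h4, ← map_sub, h4, norm_toFock_sq (hΦ.sub h5)]
      rfl
    rw [← h7]
    exact h3
  obtain ⟨Φ1, h11, h12⟩ := key _ (re_anti hΨ)
  obtain ⟨Φ2, h21, h22⟩ := key _ (im_anti hΨ)
  set w : Tensors N Q := (WithLp.toLp 2 fun x => ((Φ1 x : ℝ) : ℂ)) +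
    Complex.I • (WithLp.toLp 2 fun x => ((Φ2 x : ℝ) : ℂ)) with hw
  have hwx : ∀ x, w x = ((Φ1 x : ℝ) : ℂ) + ((Φ2 x : ℝ) : ℂ) * Complex.I := by
    intro x
    rw [hw, PiLp.add_apply, PiLp.smul_apply, smul_eq_mul, mul_comm Complex.I]
  have hre : ∀ x, ((Ψ - w) x).re = (Ψ x).re - Φ1 x := by
    intro x
    rw [PiLp.sub_apply, hwx]
    simp
  have him : ∀ x, ((Ψ - w) x).im = (Ψ x).im - Φ2 x := by
    intro x
    rw [PiLp.sub_apply, hwx]
    simp
  have hnorm : ‖Ψ - w‖ ^ 2 = ∑ x, ((Ψ x).re - Φ1 x) ^ 2 + ∑ x, ((Ψ x).im - Φ2 x) ^ 2 := by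
    rw [norm_sq_tensor]
    simp only [hre, him]
  have hmem : w ∈ zeroSub N Q := Submodule.add_mem _ h11 (Submodule.smul_mem _ _ h21)
  have hmin : ‖Ψ - (zeroSub N Q).starProjection Ψ‖ ≤ ‖Ψ - w‖ := by
    rw [Submodule.starProjection_minimal]
    refine ciInf_le ⟨0, ?_⟩ (⟨w, hmem⟩ : zeroSub N Q)
    rintro _ ⟨y, rfl⟩
    exact norm_nonneg _
  calc δ * ‖Ψ - (zeroSub N Q).starProjection Ψ‖ ^ 2
      ≤ δ * ‖Ψ - w‖ ^ 2 := by
        refine mul_le_mul_of_nonneg_left ?_ hδ.le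
        exact pow_le_pow_left₀ (norm_nonneg _) hmin 2
    _ = δ * ∑ x, ((Ψ x).re - Φ1 x) ^ 2 + δ * ∑ x, ((Ψ x).im - Φ2 x) ^ 2 := by
        rw [hnorm, mul_add]
    _ ≤ fockEnergy Q (toFock (fun x => (Ψ x).re)) + fockEnergy Q (toFock (fun x => (Ψ x).im)) :=
        add_le_add h12 h22
    _ ≤ _ := energy_ge hΨ (betaVec Q) (fun s _ p => rfl) (fun ψ => pairProj_ge _ hQ ψ)

/-- the zero-energy states in the coordinates of the statement -/
theorem isZeroState_iff (hQ : 1 ≤ Q)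
    {P : Matrix (Fin (Q + 1) × Fin (Q + 1)) (Fin (Q + 1) × Fin (Q + 1)) ℂ}
    (hP : IsPairProj Q P) (Φ : (Fin N → Fin (Q + 1)) → ℂ) :
    IsZeroState P Φ ↔ (WithLp.toLp 2 Φ : Tensors N Q) ∈ zeroSub N Q := by
  rw [mem_zeroSub, ← hamiltonian_eq_zero_iff hQ, pairSum_eq hP, WithLp.toLp_eq_zero]
  rfl

theorem gapAboveZero_of_eigen (hQ : 1 ≤ Q) {δ : ℝ} (hδ : 0 < δ)
    (hgap : ∀ μ : ℝ, μ ≠ 0 → Module.End.HasEigenvalue (fockH Q) μ → δ ≤ μ) :
    GapAboveZero δ N Q := by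
  intro P hP Ψ hΨ
  set Ψ' : Tensors N Q := WithLp.toLp 2 Ψ with hΨ'
  set Z : Tensors N Q := (zeroSub N Q).starProjection Ψ' with hZ
  have hZm : Z ∈ zeroSub N Q := Submodule.starProjection_apply_mem _ _
  have horth : ∀ Φ ∈ zeroSub N Q, inner ℂ Φ (Ψ' - Z) = 0 := by
    intro Φ hΦ
    exact Submodule.sub_starProjection_mem_orthogonal (K := zeroSub N Q) Ψ' Φ hΦ
  refine ⟨Z.ofLp, (Ψ' - Z).ofLp, ?_, ?_, ?_, ?_⟩
  · funext x
    simp [hΨ']
  · rw [isZeroState_iff hQ hP]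
    exact hZm
  · intro Φ hΦ
    rw [isZeroState_iff hQ hP] at hΦ
    have := horth _ hΦ
    rw [inner_eq_braket] at this
    exact this
  · have h1 := gap_of_eigen hQ hδ hgap (Ψ := Ψ') hΨ
    rw [pairSum_eq hP, inner_eq_braket] at h1
    have h3 := inner_self_eq_norm_sq_to_K (𝕜 := ℂ) (Ψ' - Z)
    rw [inner_eq_braket] at h3
    have h2 : ‖Ψ' - Z‖ ^ 2 = (braket (Ψ' - Z).ofLp (Ψ' - Z).ofLp).re := by
      rw [h3]
      norm_cast
    rw [h2] at h1
    exact h1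

theorem GapAboveZero.mono {δ δ' : ℝ} (h : δ' ≤ δ) (hg : GapAboveZero δ N Q) :
    GapAboveZero δ' N Q := by
  intro P hP Ψ hΨ
  obtain ⟨Ψ₀, Ψ₁, h1, h2, h3, h4⟩ := hg P hP Ψ hΨ
  refine ⟨Ψ₀, Ψ₁, h1, h2, h3, le_trans ?_ h4⟩
  apply mul_le_mul_of_nonneg_right h
  have h5 : (braket Ψ₁ Ψ₁).re = ‖(WithLp.toLp 2 Ψ₁ : Tensors N Q)‖ ^ 2 := by
    have h6 := inner_self_eq_norm_sq_to_K (𝕜 := ℂ) (WithLp.toLp 2 Ψ₁ : Tensors N Q)
    rw [inner_eq_braket] at h6
    change braket Ψ₁ Ψ₁ = _ at h6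
    rw [h6]
    norm_cast
  rw [h5]
  positivity

/-- at a fixed flux the nonzero eigenvalues are bounded below by a positive number -/
theorem exists_eigen_gap (Q : ℕ) : ∃ d : ℝ, 0 < d ∧
    ∀ μ : ℝ, μ ≠ 0 → Module.End.HasEigenvalue (fockH Q) μ → d ≤ μ := by
  classical
  have hfin : Set.Finite {μ : ℝ | Module.End.HasEigenvalue (fockH Q) μ ∧ μ ≠ 0} :=
    (Module.End.finite_hasEigenvalue (fockH Q)).subset fun μ h => h.1
  rcases Set.eq_empty_or_nonempty {μ : ℝ | Module.End.HasEigenvalue (fockH Q) μ ∧ μ ≠ 0}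
    with he | hne
  · refine ⟨1, one_pos, fun μ h0 hμ => ?_⟩
    exact absurd (show μ ∈ {μ : ℝ | Module.End.HasEigenvalue (fockH Q) μ ∧ μ ≠ 0} from ⟨hμ, h0⟩)
      (by rw [he]; exact Set.notMem_empty _)
  · obtain ⟨d, hd, hmin⟩ := hfin.exists_minimal hne
    refine ⟨d, lt_of_le_of_ne (fockH_eigenvalue_nonneg Q d hd.1) (Ne.symm hd.2),
      fun μ h0 hμ => ?_⟩
    by_contra hlt
    exact hlt (hmin ⟨hμ, h0⟩ (le_of_not_ge hlt))

/-- a single positive lower bound for the nonzero eigenvalues at all fluxes -/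
theorem exists_uniform_eigen_gap : ∃ δ : ℝ, 0 < δ ∧ ∀ Q : ℕ, 1 ≤ Q →
    ∀ μ : ℝ, μ ≠ 0 → Module.End.HasEigenvalue (fockH Q) μ → δ ≤ μ := by
  obtain ⟨Q0, hQ0⟩ := eigenvalue_bound_of_planar exists_finState (1 / 100)
    (fun lam hlam => lt_of_lt_of_le (by norm_num) (planar_bound lam hlam))
  choose d hd0 hd using exists_eigen_gap
  have h1 : ∀ n : ℕ, ∃ e : ℝ, 0 < e ∧ ∀ Q < n, e ≤ d Q := by
    intro n
    induction n with
    | zero => exact ⟨1, one_pos, fun Q hQ => absurd hQ (Nat.not_lt_zero _)⟩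
    | succ n ih =>
      obtain ⟨e, he, h⟩ := ih
      refine ⟨min e (d n), lt_min he (hd0 n), fun Q hQ => ?_⟩
      rcases Nat.lt_succ_iff_lt_or_eq.mp hQ with h2 | h2
      · exact le_trans (min_le_left _ _) (h Q h2)
      · rw [h2]; exact min_le_right _ _
  obtain ⟨e, he, hlow⟩ := h1 Q0
  refine ⟨min e (1 / 100), lt_min he (by norm_num), fun Q _ μ h0 hμ => ?_⟩
  rcases Nat.lt_or_ge Q Q0 with h | h
  · exact le_trans (le_trans (min_le_left _ _) (hlow Q h)) (hd Q μ h0 hμ)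
  · exact le_trans (min_le_right _ _) (hQ0 Q h μ h0 hμ)

/-- **The uniform gap**: one `δ > 0` for all fluxes and all particle numbers. -/
theorem uniform_gap : ∃ δ : ℝ, 0 < δ ∧ ∀ Q : ℕ, 1 ≤ Q → ∀ N : ℕ, GapAboveZero δ N Q := by
  obtain ⟨δ, hδ, h⟩ := exists_uniform_eigen_gap
  exact ⟨δ, hδ, fun Q hQ N => gapAboveZero_of_eigen hQ hδ (h Q hQ)⟩

/-- **The asymptotic constant** `1 / 50`. -/
theorem asymptotic_gap (δ : ℝ) (hδ : δ < 1 / 50) : ∃ Q₀ : ℕ, ∀ Q : ℕ, Q₀ ≤ Q → ∀ N : ℕ,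
    GapAboveZero δ N Q := by
  have hm : max δ (1 / 100) < 1 / 50 := max_lt hδ (by norm_num)
  obtain ⟨Q0, hQ0⟩ := eigenvalue_bound_of_planar exists_finState (max δ (1 / 100))
    (fun lam hlam => lt_of_lt_of_le hm (planar_bound lam hlam))
  refine ⟨max Q0 1, fun Q hQ N => ?_⟩
  refine GapAboveZero.mono (le_max_left δ (1 / 100)) ?_
  exact gapAboveZero_of_eigen (le_trans (le_max_right _ _) hQ)
    (lt_of_lt_of_le (by norm_num) (le_max_right _ _)) (hQ0 Q (le_trans (le_max_left _ _) hQ))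

theorem statePoly_eq (Φ : (Fin N → Fin (Q + 1)) → ℂ) :
    statePoly Φ = genPoly (WithLp.toLp 2 Φ : Tensors N Q) := rfl

theorem laughlinFactor_eq (N : ℕ) : laughlinFactor N = vand3 N := rfl

/-- **The zero-energy states** are the fermionic states whose polynomial is divisible by
`∏_{i<j} (z_i - z_j)^3`. -/
theorem zeroState_iff_dvd (hQ : 1 ≤ Q)
    {P : Matrix (Fin (Q + 1) × Fin (Q + 1)) (Fin (Q + 1) × Fin (Q + 1)) ℂ}
    (hP : IsPairProj Q P) {Φ : (Fin N → Fin (Q + 1)) → ℂ} (hΦ : IsFermionic Φ) :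
    pairSum P Φ = 0 ↔ laughlinFactor N ∣ statePoly Φ := by
  have hF : (WithLp.toLp 2 Φ : Tensors N Q) ∈ Fermions N Q := hΦ
  rw [statePoly_eq, laughlinFactor_eq, ← pairNull_iff_dvd hQ hF, ← hamiltonian_eq_zero_iff hQ,
    pairSum_eq hP, WithLp.toLp_eq_zero]

/-- below the Laughlin flux there is no zero-energy state -/
theorem zeroState_trivial (hQ : 1 ≤ Q) (hQN : Q < 3 * (N - 1))
    {P : Matrix (Fin (Q + 1) × Fin (Q + 1)) (Fin (Q + 1) × Fin (Q + 1)) ℂ}
    (hP : IsPairProj Q P) {Φ : (Fin N → Fin (Q + 1)) → ℂ} (hΦ : IsZeroState P Φ) : Φ = 0 := by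
  have h1 := (zeroState_iff_dvd hQ hP hΦ.1).mp hΦ.2
  rw [statePoly_eq, laughlinFactor_eq] at h1
  obtain ⟨q, hq⟩ := h1
  have hN : 0 < N := by omega
  have hq0 : q = 0 := by
    by_contra hne
    have h2 := degreeOf_genPoly (WithLp.toLp 2 Φ : Tensors N Q) (⟨0, hN⟩ : Fin N)
    rw [hq, degreeOf_mul_eq (vand3_ne_zero N) hne, degreeOf_vand3] at h2
    omega
  funext x
  have h3 := coeff_genPoly (WithLp.toLp 2 Φ : Tensors N Q) x
  rw [hq, hq0, mul_zero, coeff_zero] at h3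
  have hw : ∏ i, rb Q (x i) ≠ 0 := Finset.prod_ne_zero_iff.mpr fun i _ => rb_ne_zero _
  exact (mul_eq_zero.mp h3.symm).resolve_right hw

/-- **Incompressibility**: below the Laughlin flux the whole Hamiltonian is bounded below. -/
theorem energy_below (δ : ℝ) (hδ : δ < 1 / 50) : ∃ Q₀ : ℕ, ∀ Q : ℕ, Q₀ ≤ Q → ∀ N : ℕ,
    Q < 3 * (N - 1) → ∀ P, IsPairProj Q P → ∀ Ψ : (Fin N → Fin (Q + 1)) → ℂ, IsFermionic Ψ →
      δ * (braket Ψ Ψ).re ≤ (braket Ψ (pairSum P Ψ)).re := by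
  obtain ⟨Q₀, h⟩ := asymptotic_gap δ hδ
  refine ⟨max Q₀ 1, fun Q hQ N hN P hP Ψ hΨ => ?_⟩
  obtain ⟨Ψ₀, Ψ₁, h1, h2, h3, h4⟩ := h Q (le_trans (le_max_left _ _) hQ) N P hP Ψ hΨ
  have h5 : Ψ₀ = 0 := zeroState_trivial (le_trans (le_max_right _ _) hQ) hN hP h2
  rw [h5, zero_add] at h1
  rw [← h1] at h4
  exact h4

/-- at the Laughlin flux the zero-energy states are the multiples of the Laughlin vector -/
theorem zeroSub_laughlin (N : ℕ) :
    zeroSub N (3 * (N - 1)) = Submodule.span ℂ {laughlin N} := by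
  apply le_antisymm
  · intro Φ hΦ
    obtain ⟨c, hc⟩ := eq_smul_laughlin Φ hΦ.1 hΦ.2
    rw [hc]
    exact Submodule.smul_mem _ _ (Submodule.mem_span_singleton_self _)
  · rw [Submodule.span_singleton_le_iff_mem]
    exact ⟨laughlin_mem N, laughlin_pairNull N⟩

/-- Q1 at particle number `N`, with the constant `δ` -/
theorem laughlin_of_eigen {N : ℕ} (hN : 2 ≤ N) {δ : ℝ} (hδ : 0 < δ)
    (hgap : ∀ μ : ℝ, μ ≠ 0 → Module.End.HasEigenvalue (fockH (3 * (N - 1))) μ → δ ≤ μ)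
    {P : Matrix (Fin (3 * (N - 1) + 1) × Fin (3 * (N - 1) + 1))
      (Fin (3 * (N - 1) + 1) × Fin (3 * (N - 1) + 1)) ℂ} (hP : IsPairProj (3 * (N - 1)) P) :
    IsFermionic (laughlinVec N) ∧ laughlinVec N ≠ 0 ∧ pairSum P (laughlinVec N) = 0 ∧
      ∀ Ψ, IsFermionic Ψ →
        δ * (braket (perpPart Ψ) (perpPart Ψ)).re ≤ (braket Ψ (pairSum P Ψ)).re := by
  refine ⟨laughlin_mem N, ?_, ?_, ?_⟩
  · intro h0
    apply laughlin_ne_zero N
    rw [laughlin_eq, h0]; rfl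
  · have h1 := hamiltonian_laughlin N
    rw [laughlin_eq, pairSum_eq hP, WithLp.toLp_eq_zero] at h1
    exact h1
  · intro Ψ hΨ
    have h1 := gap_of_eigen (by omega) hδ hgap
      (Ψ := (WithLp.toLp 2 Ψ : Tensors N (3 * (N - 1)))) hΨ
    rw [zeroSub_laughlin, perp_eq, pairSum_eq hP, inner_eq_braket] at h1
    have h2 : ‖(WithLp.toLp 2 (perpPart Ψ) : EuclideanSpace ℂ (Fin N → Fin (3 * (N - 1) + 1)))‖ ^ 2
        = (braket (perpPart Ψ) (perpPart Ψ)).re := by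
      have h3 := inner_self_eq_norm_sq_to_K (𝕜 := ℂ)
        (WithLp.toLp 2 (perpPart Ψ) : EuclideanSpace ℂ (Fin N → Fin (3 * (N - 1) + 1)))
      rw [inner_eq_braket] at h3
      change braket (perpPart Ψ) (perpPart Ψ) = _ at h3
      rw [h3]
      norm_cast
    rw [h2] at h1
    exact h1

/-- **Q1 for every `N ≥ 2`.** -/
theorem laughlin_all : ∃ δ : ℝ, 0 < δ ∧ ∀ N : ℕ, 2 ≤ N → ∀ P, IsPairProj (3 * (N - 1)) P →
    IsFermionic (laughlinVec N) ∧ laughlinVec N ≠ 0 ∧ pairSum P (laughlinVec N) = 0 ∧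
      ∀ Ψ, IsFermionic Ψ →
        δ * (braket (perpPart Ψ) (perpPart Ψ)).re ≤ (braket Ψ (pairSum P Ψ)).re := by
  obtain ⟨δ, hδ, h⟩ := exists_uniform_eigen_gap
  exact ⟨δ, hδ, fun N hN P hP => laughlin_of_eigen hN hδ (h _ (by omega)) hP⟩

/-- **Q1 with every constant below `1 / 50`** for large `N`. -/
theorem laughlin_asymptotic (δ : ℝ) (hδ : δ < 1 / 50) : ∃ N₀ : ℕ, ∀ N : ℕ, N₀ ≤ N →
    ∀ P, IsPairProj (3 * (N - 1)) P → ∀ Ψ, IsFermionic Ψ →
      δ * (braket (perpPart Ψ) (perpPart Ψ)).re ≤ (braket Ψ (pairSum P Ψ)).re := by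
  have hm : max δ (1 / 100) < 1 / 50 := max_lt hδ (by norm_num)
  obtain ⟨Q0, hQ0⟩ := eigenvalue_bound_of_planar exists_finState (max δ (1 / 100))
    (fun lam hlam => lt_of_lt_of_le hm (planar_bound lam hlam))
  refine ⟨Q0 + 2, fun N hN P hP Ψ hΨ => ?_⟩
  have h1 := (laughlin_of_eigen (N := N) (by omega)
    (lt_of_lt_of_le (by norm_num) (le_max_right δ (1 / 100))) (hQ0 (3 * (N - 1)) (by omega)) hP).2.2.2
    Ψ hΨ
  refine le_trans (mul_le_mul_of_nonneg_right (le_max_left _ _) ?_) h1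
  have h5 : (braket (perpPart Ψ) (perpPart Ψ)).re
      = ‖(WithLp.toLp 2 (perpPart Ψ) : Tensors N (3 * (N - 1)))‖ ^ 2 := by
    have h6 := inner_self_eq_norm_sq_to_K (𝕜 := ℂ)
      (WithLp.toLp 2 (perpPart Ψ) : Tensors N (3 * (N - 1)))
    rw [inner_eq_braket] at h6
    change braket (perpPart Ψ) (perpPart Ψ) = _ at h6
    rw [h6]
    norm_cast
  rw [h5]
  positivity

theorem rename_vand3 (σ : Equiv.Perm (Fin N)) :
    rename σ (vand3 N) = C (((Equiv.Perm.sign σ : ℤ) : ℂ)) * vand3 N := by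
  obtain ⟨ε, hε, hε'⟩ := dehom_laughlinPoly N
  have h1 : vand3 N = C ε * vdm N ^ 3 := by
    rw [← dehom_eq, hε', ← mul_assoc, ← C_mul, hε, C_1, one_mul]
  rw [h1, map_mul, map_pow, rename_vdm, rename_C, mul_pow, ← C_pow]
  have h2 : (((Equiv.Perm.sign σ : ℤ) : ℂ)) ^ 3 = ((Equiv.Perm.sign σ : ℤ) : ℂ) := by
    rcases Int.units_eq_one_or (Equiv.Perm.sign σ) with h | h <;> rw [h] <;> norm_num
  rw [h2]
  ring

/-- from the Laughlin flux on there is a nonzero zero-energy state -/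
theorem exists_zeroState (hQ : 1 ≤ Q) (hQN : 3 * (N - 1) ≤ Q)
    {P : Matrix (Fin (Q + 1) × Fin (Q + 1)) (Fin (Q + 1) × Fin (Q + 1)) ℂ}
    (hP : IsPairProj Q P) : ∃ Φ : (Fin N → Fin (Q + 1)) → ℂ, Φ ≠ 0 ∧ IsZeroState P Φ := by
  set Φ : (Fin N → Fin (Q + 1)) → ℂ := fun x => coeff (expn x) (vand3 N) / ∏ i, rb Q (x i)
    with hΦ
  have hF : IsFermionic Φ := by
    intro σ x
    simp only [hΦ]
    have h2 : ∏ i, rb Q ((x ∘ σ) i) = ∏ i, rb Q (x i) := Equiv.prod_comp σ (fun i => rb Q (x i))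
    rw [h2, coeff_expn_comp, rename_vand3, coeff_C_mul, mul_div_assoc]
  have hgen : genPoly (WithLp.toLp 2 Φ : Tensors N Q) = vand3 N := by
    ext m
    by_cases hm : ∀ k, m k ≤ Q
    · obtain ⟨x, rfl⟩ := exists_expn m hm
      rw [coeff_genPoly]
      have hw : ∏ i, rb Q (x i) ≠ 0 := Finset.prod_ne_zero_iff.mpr fun i _ => rb_ne_zero _
      exact div_mul_cancel₀ _ hw
    · push Not at hm
      obtain ⟨k, hk⟩ := hm
      have aux : ∀ f : MvPolynomial (Fin N) ℂ, degreeOf k f ≤ Q → coeff m f = 0 := by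
        intro f hf
        by_contra h
        have := monomial_le_degreeOf k (mem_support_iff.mpr h)
        omega
      rw [aux _ (degreeOf_genPoly _ k), aux _ (by rw [degreeOf_vand3]; exact hQN)]
  refine ⟨Φ, ?_, hF, ?_⟩
  · intro h0
    have h1 : genPoly (WithLp.toLp 2 Φ : Tensors N Q) = 0 := by
      rw [h0, genPoly]
      apply Finset.sum_eq_zero
      intro x _
      simp
    rw [hgen] at h1
    exact vand3_ne_zero N h1
  · rw [zeroState_iff_dvd hQ hP hF, statePoly_eq, laughlinFactor_eq, hgen]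

/-- zero-energy states exist exactly from the Laughlin flux on -/
theorem exists_zeroState_iff (hQ : 1 ≤ Q)
    {P : Matrix (Fin (Q + 1) × Fin (Q + 1)) (Fin (Q + 1) × Fin (Q + 1)) ℂ}
    (hP : IsPairProj Q P) :
    (∃ Φ : (Fin N → Fin (Q + 1)) → ℂ, Φ ≠ 0 ∧ IsZeroState P Φ) ↔ 3 * (N - 1) ≤ Q := by
  constructor
  · rintro ⟨Φ, h0, hΦ⟩
    by_contra h
    exact h0 (zeroState_trivial hQ (not_le.mp h) hP hΦ)
  · intro h
    exact exists_zeroState hQ h hP

end Vale.Agent.P359.AllFlux
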